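import Vale.Agent.P012.FinalB

/-!
# P012: `N(b) ≤ C log log b * log log log b`, with `N(a,b)` and `N(b)` defined as in the problem
-/

namespace Vale.Agent.Results.P012.BigOForm

/-- `N(a,b)`: the least `k ≥ 1` such that `a / b` is a sum of `k` distinct unit fractions with
denominators at least `2`. -/
noncomputable def Nab (a b : ℕ) : ℕ :=
  sInf {k : ℕ | 1 ≤ k ∧ ∃ S : Finset ℕ, S.card = k ∧ (∀ n ∈ S, 2 ≤ n) ∧
    ∑ n ∈ S, (1 : ℚ) / n = a / b}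

/-- `N(b) = max_{1 ≤ a < b} N(a,b)`. -/
noncomputable def Nmax (b : ℕ) : ℕ := (Finset.Ico 1 b).sup (fun a => Nab a b)

theorem result : ∃ C : ℝ, ∃ b₀ : ℕ, ∀ b : ℕ, b₀ ≤ b →
    (∀ a : ℕ, 1 ≤ a → a < b → 1 ≤ Nab a b ∧ ∃ S : Finset ℕ, S.card = Nab a b ∧
      (∀ n ∈ S, 2 ≤ n) ∧ ∑ n ∈ S, (1 : ℚ) / n = a / b) ∧
    (Nmax b : ℝ) ≤ C * (Real.log (Real.log b) * Real.log (Real.log (Real.log b))) := by
  obtain ⟨C, b₀, h⟩ := Vale.Agent.P012.finalB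
  refine ⟨C, max b₀ 2, fun b hb => ?_⟩
  have hb0 : b₀ ≤ b := le_trans (le_max_left _ _) hb
  have hb2 : 2 ≤ b := le_trans (le_max_right _ _) hb
  have key : ∀ a : ℕ, 1 ≤ a → a < b →
      ∃ k : ℕ, (k : ℝ) ≤ C * (Real.log (Real.log b) * Real.log (Real.log (Real.log b))) ∧
        k ∈ {k : ℕ | 1 ≤ k ∧ ∃ S : Finset ℕ, S.card = k ∧ (∀ n ∈ S, 2 ≤ n) ∧
          ∑ n ∈ S, (1 : ℚ) / n = a / b} := by
    intro a ha hab
    obtain ⟨S, hS2, hcard, hsum⟩ := h b hb0 a ha hab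
    refine ⟨S.card, hcard, ?_, S, rfl, hS2, hsum⟩
    rw [Nat.one_le_iff_ne_zero, Ne, Finset.card_eq_zero]
    rintro rfl
    rw [Finset.sum_empty] at hsum
    have hpos : (0 : ℚ) < (a : ℚ) / b := by
      have h1 : (0 : ℚ) < a := by exact_mod_cast ha
      have h2 : (0 : ℚ) < b := by exact_mod_cast (by omega : 0 < b)
      positivity
    rw [← hsum] at hpos
    exact lt_irrefl _ hpos
  refine ⟨fun a ha hab => ?_, ?_⟩
  · obtain ⟨k, _, hk⟩ := key a ha hab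
    exact Nat.sInf_mem ⟨k, hk⟩
  · have hne : (Finset.Ico 1 b).Nonempty := ⟨1, Finset.mem_Ico.mpr ⟨le_rfl, by omega⟩⟩
    obtain ⟨a, ha, hsup⟩ := Finset.exists_mem_eq_sup (Finset.Ico 1 b) hne (fun a => Nab a b)
    obtain ⟨k, hkb, hk⟩ := key a (Finset.mem_Ico.mp ha).1 (Finset.mem_Ico.mp ha).2
    have h1 : Nab a b ≤ k := Nat.sInf_le hk
    unfold Nmax
    rw [hsup]
    exact le_trans (by exact_mod_cast h1) hkb

end Vale.Agent.Results.P012.BigOForm
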