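import Vale.Agent.P012.FinalB

/-!
# P012: the bound on `N(b)` stated with the quantities of the problem

`N(a,b)` is the least number `k ≥ 1` of distinct unit fractions with denominators `≥ 2` summing to
`a / b`, and `N(b) = max_{1 ≤ a < b} N(a,b)`.  We prove `N(b) = O(log log b * log log log b)`.
-/

namespace Vale.Agent.Results.P012.GrowthOfN

open Filter Asymptotics

/-- `IsRep a b k`: the fraction `a / b` is a sum of exactly `k` distinct unit fractions `1 / n`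
with integers `n ≥ 2` (the denominators form a finite set `S` with `k` elements). -/
def IsRep (a b k : ℕ) : Prop :=
  ∃ S : Finset ℕ, S.card = k ∧ (∀ n ∈ S, 2 ≤ n) ∧ ∑ n ∈ S, (1 : ℚ) / n = a / b

/-- `N(a,b)`: the least `k ≥ 1` such that `a / b` is a sum of `k` distinct unit fractions. -/
noncomputable def Nab (a b : ℕ) : ℕ := sInf {k : ℕ | 1 ≤ k ∧ IsRep a b k}

/-- `N(b)`: the maximum of `N(a,b)` over `1 ≤ a < b`. -/
noncomputable def Nb (b : ℕ) : ℕ := (Finset.Ico 1 b).sup (fun a => Nab a b)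

theorem result :
    ∃ C : ℝ, ∃ b₀ : ℕ,
      (∀ b : ℕ, b₀ ≤ b →
        (∀ a : ℕ, 1 ≤ a → a < b → IsLeast {k : ℕ | 1 ≤ k ∧ IsRep a b k} (Nab a b)) ∧
        IsGreatest ((fun a => Nab a b) '' {a : ℕ | 1 ≤ a ∧ a < b}) (Nb b) ∧
        (Nb b : ℝ) ≤ C * (Real.log (Real.log b) * Real.log (Real.log (Real.log b)))) ∧
      (fun b : ℕ => (Nb b : ℝ)) =O[atTop]
        (fun b : ℕ => Real.log (Real.log b) * Real.log (Real.log (Real.log b))) := by
  obtain ⟨C, b₀, h⟩ := Vale.Agent.P012.finalB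
  -- the key facts for one pair `(a, b)`
  have key : ∀ b : ℕ, b₀ ≤ b → ∀ a : ℕ, 1 ≤ a → a < b →
      IsLeast {k : ℕ | 1 ≤ k ∧ IsRep a b k} (Nab a b) ∧
      (Nab a b : ℝ) ≤ C * (Real.log (Real.log b) * Real.log (Real.log (Real.log b))) := by
    intro b hb a ha hab
    obtain ⟨S, hS2, hScard, hSsum⟩ := h b hb a ha hab
    have hne : S.Nonempty := by
      rcases S.eq_empty_or_nonempty with h0 | h0
      · exfalso
        rw [h0, Finset.sum_empty] at hSsum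
        have hb0 : (0 : ℚ) < b := by exact_mod_cast (lt_of_lt_of_le Nat.zero_lt_one ha).trans hab
        have ha0 : (0 : ℚ) < a := by exact_mod_cast lt_of_lt_of_le Nat.zero_lt_one ha
        have : (0 : ℚ) < a / b := div_pos ha0 hb0
        linarith
      · exact h0
    have hmem : S.card ∈ {k : ℕ | 1 ≤ k ∧ IsRep a b k} :=
      ⟨Finset.card_pos.mpr hne, S, rfl, hS2, hSsum⟩
    refine ⟨⟨Nat.sInf_mem ⟨_, hmem⟩, fun k hk => Nat.sInf_le hk⟩, ?_⟩
    have h1 : Nab a b ≤ S.card := Nat.sInf_le hmem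
    have h2 : (Nab a b : ℝ) ≤ (S.card : ℝ) := by exact_mod_cast h1
    exact h2.trans hScard
  have main : ∀ b : ℕ, max b₀ 2 ≤ b →
      (∀ a : ℕ, 1 ≤ a → a < b → IsLeast {k : ℕ | 1 ≤ k ∧ IsRep a b k} (Nab a b)) ∧
      IsGreatest ((fun a => Nab a b) '' {a : ℕ | 1 ≤ a ∧ a < b}) (Nb b) ∧
      (Nb b : ℝ) ≤ C * (Real.log (Real.log b) * Real.log (Real.log (Real.log b))) := by
    intro b hb
    have hb0 : b₀ ≤ b := le_trans (le_max_left _ _) hb
    have hb2 : 2 ≤ b := le_trans (le_max_right _ _) hb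
    have hne : (Finset.Ico 1 b).Nonempty := ⟨1, Finset.mem_Ico.mpr ⟨le_refl _, hb2⟩⟩
    obtain ⟨a₀, ha₀, hsup⟩ := Finset.exists_mem_eq_sup (Finset.Ico 1 b) hne (fun a => Nab a b)
    have ha₀' := Finset.mem_Ico.mp ha₀
    refine ⟨fun a ha hab => (key b hb0 a ha hab).1, ⟨⟨a₀, ⟨ha₀'.1, ha₀'.2⟩, hsup.symm⟩, ?_⟩, ?_⟩
    · rintro _ ⟨a, ⟨ha, hab⟩, rfl⟩
      exact Finset.le_sup (f := fun a => Nab a b) (Finset.mem_Ico.mpr ⟨ha, hab⟩)
    · have : Nb b = Nab a₀ b := hsup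
      rw [this]
      exact (key b hb0 a₀ ha₀'.1 ha₀'.2).2
  refine ⟨C, max b₀ 2, main, ?_⟩
  refine IsBigO.of_bound |C| ?_
  filter_upwards [eventually_ge_atTop (max b₀ 2)] with b hb
  have h3 := (main b hb).2.2
  rw [Real.norm_of_nonneg (Nat.cast_nonneg _), Real.norm_eq_abs, ← abs_mul]
  exact h3.trans (le_abs_self _)

end Vale.Agent.Results.P012.GrowthOfN
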