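import Vale.Agent.P012.FinalB

/-- Every fraction `a / b` with `1 ≤ a < b` and `b` large is a sum of at most
`C * log log b * log log log b` distinct unit fractions with denominators at least `2`. -/
theorem Vale.Agent.Results.P012.LogLogTimesLogLogLog.result :
    ∃ C : ℝ, ∃ b₀ : ℕ, ∀ b : ℕ, b₀ ≤ b → ∀ a : ℕ, 1 ≤ a → a < b →
      ∃ S : Finset ℕ, (∀ n ∈ S, 2 ≤ n) ∧
        (S.card : ℝ) ≤ C * (Real.log (Real.log b) * Real.log (Real.log (Real.log b))) ∧
        ∑ n ∈ S, (1 : ℚ) / n = a / b :=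
  Vale.Agent.P012.finalB
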