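import Vale.Agent.P012.FinalB

namespace Vale.Agent.Results.P012.MaxLengthBound

/-- The set of all lengths `k` of expansions of `a / b` as a sum of `k` distinct unit fractions
with denominators at least `2`. -/
def lengths (a b : ℕ) : Set ℕ :=
  {k : ℕ | ∃ S : Finset ℕ, S.card = k ∧ (∀ n ∈ S, 2 ≤ n) ∧ ∑ n ∈ S, (1 : ℚ) / n = a / b}

/-- `N(a,b)`: the least number of distinct unit fractions summing to `a / b`. -/
noncomputable def shortest (a b : ℕ) : ℕ := sInf (lengths a b)

/-- `N(b)`: the maximum of `N(a,b)` over `1 ≤ a < b`. -/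
noncomputable def maxShortest (b : ℕ) : ℕ := (Finset.Ico 1 b).sup (fun a => shortest a b)

end Vale.Agent.Results.P012.MaxLengthBound

open Vale.Agent.Results.P012.MaxLengthBound in
/-- `N(b) ≪ log log b * log log log b`, in the wording of the problem: for all large `b` every
`N(a,b)` is a genuine minimum and their maximum `N(b)` is at most
`C * log log b * log log log b`; in particular `N(b) = O(log log b * log log log b)`. -/
theorem Vale.Agent.Results.P012.MaxLengthBound.result :
    (∃ C : ℝ, ∃ b₀ : ℕ, ∀ b : ℕ, b₀ ≤ b →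
      (∀ a : ℕ, 1 ≤ a → a < b → IsLeast (lengths a b) (shortest a b)) ∧
      IsGreatest ((fun a => shortest a b) '' Set.Ico 1 b) (maxShortest b) ∧
      (maxShortest b : ℝ) ≤ C * (Real.log (Real.log b) * Real.log (Real.log (Real.log b)))) ∧
    (fun b : ℕ => (maxShortest b : ℝ)) =O[Filter.atTop]
      (fun b : ℕ => Real.log (Real.log b) * Real.log (Real.log (Real.log b))) := by
  obtain ⟨C, b₀, h⟩ := Vale.Agent.P012.finalB
  have key : ∀ b : ℕ, max b₀ 2 ≤ b →
      (∀ a : ℕ, 1 ≤ a → a < b → IsLeast (lengths a b) (shortest a b)) ∧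
      IsGreatest ((fun a => shortest a b) '' Set.Ico 1 b) (maxShortest b) ∧
      (maxShortest b : ℝ) ≤ C * (Real.log (Real.log b) * Real.log (Real.log (Real.log b))) := by
    intro b hb
    have hb0 : b₀ ≤ b := le_trans (le_max_left _ _) hb
    have hb2 : 2 ≤ b := le_trans (le_max_right _ _) hb
    have hne : ∀ a : ℕ, 1 ≤ a → a < b → (lengths a b).Nonempty := by
      intro a ha hab
      obtain ⟨S, hS2, _, hSs⟩ := h b hb0 a ha hab
      exact ⟨S.card, S, rfl, hS2, hSs⟩
    have hle : ∀ a : ℕ, 1 ≤ a → a < b →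
        (shortest a b : ℝ) ≤ C * (Real.log (Real.log b) * Real.log (Real.log (Real.log b))) := by
      intro a ha hab
      obtain ⟨S, hS2, hSc, hSs⟩ := h b hb0 a ha hab
      have h1 : shortest a b ≤ S.card := Nat.sInf_le ⟨S, rfl, hS2, hSs⟩
      exact le_trans (by exact_mod_cast h1) hSc
    have hIne : (Finset.Ico 1 b).Nonempty := ⟨1, by simp; omega⟩
    obtain ⟨a₁, ha₁, hmax⟩ := Finset.exists_mem_eq_sup (Finset.Ico 1 b) hIne
      (fun a => shortest a b)
    have ha₁' : 1 ≤ a₁ ∧ a₁ < b := by simpa using ha₁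
    refine ⟨fun a ha hab => ⟨Nat.sInf_mem (hne a ha hab), fun k hk => Nat.sInf_le hk⟩, ?_, ?_⟩
    · refine ⟨⟨a₁, ⟨ha₁'.1, ha₁'.2⟩, hmax.symm⟩, ?_⟩
      rintro _ ⟨a, ha, rfl⟩
      exact Finset.le_sup (f := fun a => shortest a b) (by simpa using ha)
    · have : maxShortest b = shortest a₁ b := hmax
      rw [this]
      exact hle a₁ ha₁'.1 ha₁'.2
  refine ⟨⟨C, max b₀ 2, key⟩, ?_⟩
  refine Asymptotics.IsBigO.of_bound |C| ?_
  filter_upwards [Filter.eventually_ge_atTop (max b₀ 2)] with b hb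
  have h3 := (key b hb).2.2
  have h4 : (0 : ℝ) ≤ (maxShortest b : ℝ) := Nat.cast_nonneg _
  rw [Real.norm_of_nonneg h4, Real.norm_eq_abs, ← abs_mul]
  exact le_trans h3 (le_abs_self _)
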